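import Mathlib

/-!
P173: presentation complexes, described by chains on their universal covers.
-/

namespace Vale.Agent.P173

variable {X Γ : Type} [Group Γ]

/-- The chain of the lift, starting at the vertex g, of the edge path spelled by a list of letters.
The edge (x, g) runs from g to g * f x. -/
noncomputable def pathChain (f : X → Γ) : Γ → List (X × Bool) → (X × Γ →₀ ℤ)
  | _, [] => 0
  | g, (x, true) :: L => Finsupp.single (x, g) 1 + pathChain f (g * f x) L
  | g, (x, false) :: L =>
      - Finsupp.single (x, g * (f x)⁻¹) 1 + pathChain f (g * (f x)⁻¹) L

theorem pathChain_append (f : X → Γ) : ∀ (L M : List (X × Bool)) (g : Γ),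
    pathChain f g (L ++ M) =
      pathChain f g L + pathChain f (g * FreeGroup.lift f (FreeGroup.mk L)) M := by
  intro L
  induction L with
  | nil => intro M g; simp [pathChain, FreeGroup.lift_mk]
  | cons a L ih =>
    intro M g
    obtain ⟨x, b⟩ := a
    cases b <;>
      simp [pathChain, ih, FreeGroup.lift_mk, add_assoc, mul_assoc]

theorem pathChain_step (f : X → Γ) (g : Γ) {L M : List (X × Bool)}
    (h : FreeGroup.Red.Step L M) : pathChain f g L = pathChain f g M := by
  cases h with
  | @not L₁ L₂ x b =>
    rw [pathChain_append, pathChain_append]
    cases b <;> simp [pathChain]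

/-- The chain of the lift starting at g of the loop spelled by a word. -/
noncomputable def chain (f : X → Γ) (g : Γ) (w : FreeGroup X) : X × Γ →₀ ℤ :=
  Quot.liftOn w (pathChain f g) fun _ _ h => pathChain_step f g h

/-- The boundary map from two-chains to one-chains on the universal cover of the presentation
complex with generators X and relators r. -/
noncomputable def boundary {R : Type} (f : X → Γ) (r : R → FreeGroup X) :
    (R × Γ →₀ ℤ) →ₗ[ℤ] (X × Γ →₀ ℤ) :=
  Finsupp.linearCombination ℤ fun p : R × Γ => chain f p.2 (r p.1)

/-- The group has an aspherical presentation complex: some presentation whose universal cover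
has injective boundary map in degree two. -/
def HasAsphericalPresentation (Γ : Type) [Group Γ] : Prop :=
  ∃ (X R : Type) (f : X → Γ) (r : R → FreeGroup X),
    Function.Surjective (FreeGroup.lift f) ∧
    Subgroup.normalClosure (Set.range r) = (FreeGroup.lift f).ker ∧
    Function.Injective (boundary f r)

end Vale.Agent.P173
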