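import Mathlib
import Vale.Agent.P173.Defs

/-!
P173: a well-ordered increasing union of free groups whose partial unions are free has an
aspherical presentation complex.
-/

namespace Vale.Agent.P173

variable {X Γ : Type} [Group Γ]

theorem chain_one (f : X → Γ) (g : Γ) : chain f g 1 = 0 := rfl

theorem chain_of (f : X → Γ) (g : Γ) (x : X) :
    chain f g (FreeGroup.of x) = Finsupp.single (x, g) 1 := by
  show pathChain f g [(x, true)] = _
  simp [pathChain]

theorem chain_mul (f : X → Γ) (g : Γ) (a b : FreeGroup X) :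
    chain f g (a * b) = chain f g a + chain f (g * FreeGroup.lift f a) b := by
  induction a using Quot.ind with
  | _ L =>
    induction b using Quot.ind with
    | _ M => exact pathChain_append f L M g

theorem chain_inv (f : X → Γ) (g : Γ) (a : FreeGroup X) :
    chain f g a⁻¹ = - chain f (g * (FreeGroup.lift f a)⁻¹) a := by
  have h := chain_mul f g a⁻¹ a
  rw [inv_mul_cancel, chain_one, map_inv] at h
  exact eq_neg_of_add_eq_zero_left h.symm

theorem mem_iSup_directed {ι : Type} [LinearOrder ι] (H : ι → Subgroup Γ) (hH : Monotone H)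
    (p : ι → Prop) {x : Γ} (hx : x ∈ ⨆ i, ⨆ _ : p i, H i) :
    x = 1 ∨ ∃ i, p i ∧ x ∈ H i := by
  rw [iSup_subtype'] at hx
  refine Subgroup.iSup_induction _ (C := fun x => x = 1 ∨ ∃ i, p i ∧ x ∈ H i) hx
    (fun i x hx => Or.inr ⟨i.1, i.2, hx⟩) (Or.inl rfl) fun a b ha hb => ?_
  rcases ha with rfl | ⟨i, hi, ha⟩
  · rwa [one_mul]
  rcases hb with rfl | ⟨k, hk, hb⟩
  · exact Or.inr ⟨i, hi, by rwa [mul_one]⟩
  rcases le_total i k with h | h
  · exact Or.inr ⟨k, hk, mul_mem (hH h ha) hb⟩
  · exact Or.inr ⟨i, hi, mul_mem ha (hH h hb)⟩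

section Main

variable {ι : Type} [LinearOrder ι] (H : ι → Subgroup Γ) [hfree : ∀ i, IsFreeGroup (H i)]

/-- The union of the terms below j. -/
abbrev below (j : ι) : Subgroup Γ := ⨆ i, ⨆ _ : i < j, H i

variable [hbelow : ∀ j, IsFreeGroup (below H j)]

/-- The generators: a basis of every term. -/
abbrev Gen : Type := Σ i, IsFreeGroup.Generators (H i)

/-- The relator index: a basis of every partial union. -/
abbrev Rel : Type := Σ j, IsFreeGroup.Generators (below H j)

/-- The value of a generator. -/
noncomputable def genVal (q : Gen H) : Γ := (IsFreeGroup.basis (H q.1) q.2 : H q.1)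

/-- The value of a basis element of a partial union. -/
noncomputable def relVal (q : Rel H) : Γ := (IsFreeGroup.basis (below H q.1) q.2 : below H q.1)

/-- The words in generators of stages below j. -/
def lowWords (j : ι) : Subgroup (FreeGroup (Gen H)) :=
  Subgroup.closure {w | ∃ q : Gen H, q.1 < j ∧ w = FreeGroup.of q}

theorem lift_map (i : ι) (v : FreeGroup (IsFreeGroup.Generators (H i))) :
    FreeGroup.lift (genVal H) (FreeGroup.map (Sigma.mk i) v) =
      (((IsFreeGroup.basis (H i)).repr.symm v : H i) : Γ) := by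
  have : (FreeGroup.lift (genVal H)).comp (FreeGroup.map (Sigma.mk i)) =
      ((H i).subtype).comp (IsFreeGroup.basis (H i)).repr.symm.toMonoidHom := by
    apply FreeGroup.ext_hom
    intro x
    simp [genVal]
    rfl
  exact DFunLike.congr_fun this v

theorem map_mem_low {i j : ι} (h : i < j) (v : FreeGroup (IsFreeGroup.Generators (H i))) :
    FreeGroup.map (Sigma.mk i) v ∈ lowWords H j := by
  induction v using FreeGroup.induction_on with
  | C1 => simp
  | of x => exact Subgroup.subset_closure ⟨⟨i, x⟩, h, by simp⟩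
  | inv_of x hx => simpa using hx
  | mul a b ha hb => simpa using mul_mem ha hb

theorem below_le_image (j : ι) : below H j ≤ (lowWords H j).map (FreeGroup.lift (genVal H)) := by
  refine iSup₂_le fun i hi x hx => ?_
  refine ⟨FreeGroup.map (Sigma.mk i) ((IsFreeGroup.basis (H i)).repr ⟨x, hx⟩),
    map_mem_low H hi _, ?_⟩
  simp [lift_map]

/-- A word in lower generators with the value of a basis element. -/
noncomputable def lowWord (q : Rel H) : FreeGroup (Gen H) :=
  (below_le_image H q.1 (IsFreeGroup.basis (below H q.1) q.2).2).choose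

theorem lowWord_spec (q : Rel H) : lowWord H q ∈ lowWords H q.1 ∧
    FreeGroup.lift (genVal H) (lowWord H q) = relVal H q :=
  (below_le_image H q.1 (IsFreeGroup.basis (below H q.1) q.2).2).choose_spec

variable (hH : Monotone H)

theorem below_le (hH : Monotone H) (j : ι) : below H j ≤ H j :=
  iSup₂_le fun _ hi => hH hi.le

/-- The word in the basis of stage j of a basis element of the partial union below j. -/
noncomputable def highWord (q : Rel H) : FreeGroup (IsFreeGroup.Generators (H q.1)) :=
  (IsFreeGroup.basis (H q.1)).repr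
    ⟨relVal H q, below_le H hH q.1 (IsFreeGroup.basis (below H q.1) q.2).2⟩

/-- The relators. -/
noncomputable def rel (q : Rel H) : FreeGroup (Gen H) :=
  (lowWord H q)⁻¹ * FreeGroup.map (Sigma.mk q.1) (highWord H hH q)

theorem lift_rel (q : Rel H) : FreeGroup.lift (genVal H) (rel H hH q) = 1 := by
  rw [rel, map_mul, map_inv, (lowWord_spec H q).2, lift_map, highWord,
    MulEquiv.symm_apply_apply, inv_mul_cancel]

theorem surj (htop : (⨆ i, H i) = ⊤) : Function.Surjective (FreeGroup.lift (genVal H)) := by
  intro x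
  have : (⨆ i, H i) ≤ (FreeGroup.lift (genVal H)).range := iSup_le fun i y hy =>
    ⟨FreeGroup.map (Sigma.mk i) ((IsFreeGroup.basis (H i)).repr ⟨y, hy⟩), by simp [lift_map]⟩
  exact this (htop ▸ Subgroup.mem_top x)

/-! ### The group presented by the relators -/

/-- The kernel of the presentation. -/
abbrev relKer : Subgroup (FreeGroup (Gen H)) := Subgroup.normalClosure (Set.range (rel H hH))

/-- The map from a stage to the presented group. -/
noncomputable def stageMap (i : ι) : H i →* FreeGroup (Gen H) ⧸ relKer H hH :=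
  (QuotientGroup.mk' (relKer H hH)).comp
    ((FreeGroup.map (Sigma.mk i)).comp (IsFreeGroup.basis (H i)).repr.toMonoidHom)

/-- Stage maps agree on all stages below j. -/
def Compat (j : ι) : Prop :=
  ∀ (i : ι), i < j → ∀ (x : Γ) (hi : x ∈ H i) (hj : x ∈ H j),
    stageMap H hH j ⟨x, hj⟩ = stageMap H hH i ⟨x, hi⟩

theorem compat_le {i k : ι} (hk : Compat H hH k) (h : i ≤ k) {x : Γ} (hi : x ∈ H i) :
    stageMap H hH k ⟨x, hH h hi⟩ = stageMap H hH i ⟨x, hi⟩ := by
  rcases lt_or_eq_of_le h with h | rfl
  · exact hk i h x hi _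
  · rfl

theorem word_eq (p : ι → Prop) (hp : ∀ i, p i → Compat H hH i) {w : FreeGroup (Gen H)}
    (hw : w ∈ Subgroup.closure {w | ∃ q : Gen H, p q.1 ∧ w = FreeGroup.of q}) :
    (w : FreeGroup (Gen H) ⧸ relKer H hH) = 1 ∨ ∃ (i : ι) (_ : p i)
      (h : FreeGroup.lift (genVal H) w ∈ H i),
      (w : FreeGroup (Gen H) ⧸ relKer H hH) = stageMap H hH i ⟨_, h⟩ := by
  induction hw using Subgroup.closure_induction with
  | mem w hw =>
    obtain ⟨⟨i, x⟩, hi, rfl⟩ := hw
    refine Or.inr ⟨i, hi, by simp [genVal], ?_⟩
    have : (⟨FreeGroup.lift (genVal H) (FreeGroup.of (⟨i, x⟩ : Gen H)), by simp [genVal]⟩ : H i) =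
        IsFreeGroup.basis (H i) x := Subtype.ext (by simp [genVal])
    rw [this]
    simp [stageMap]
  | one => exact Or.inl rfl
  | mul a b _ _ ha hb =>
    rcases ha with ha | ⟨i, hi, hai, ha⟩
    · rcases hb with hb | ⟨k, hk, hbk, hb⟩
      · exact Or.inl (by simp [ha, hb])
      · refine Or.inr ⟨k, hk, ?_⟩
        have h1 : FreeGroup.lift (genVal H) a = 1 := lift_eq_one H hH ha
        refine ⟨by simpa [h1] using hbk, ?_⟩
        simp only [QuotientGroup.mk_mul, ha, one_mul, hb, map_mul, h1]
    · rcases hb with hb | ⟨k, hk, hbk, hb⟩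
      · refine Or.inr ⟨i, hi, ?_⟩
        have h1 : FreeGroup.lift (genVal H) b = 1 := lift_eq_one H hH hb
        refine ⟨by simpa [h1] using hai, ?_⟩
        simp only [QuotientGroup.mk_mul, hb, mul_one, ha, map_mul, h1]
      · rcases le_total i k with h | h
        · refine Or.inr ⟨k, hk, by simpa using mul_mem (hH h hai) hbk, ?_⟩
          rw [QuotientGroup.mk_mul, ha, hb, ← compat_le H hH (hp k hk) h hai, ← map_mul]
          exact congrArg _ (Subtype.ext (by simp))
        · refine Or.inr ⟨i, hi, by simpa using mul_mem hai (hH h hbk), ?_⟩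
          rw [QuotientGroup.mk_mul, ha, hb, ← compat_le H hH (hp i hi) h hbk, ← map_mul]
          exact congrArg _ (Subtype.ext (by simp))
  | inv a _ ha =>
    rcases ha with ha | ⟨i, hi, hai, ha⟩
    · exact Or.inl (by simp [ha])
    · refine Or.inr ⟨i, hi, by simpa using inv_mem hai, ?_⟩
      rw [QuotientGroup.mk_inv, ha, ← map_inv]
      exact congrArg _ (Subtype.ext (by simp))
where
  lift_eq_one {ι : Type} [LinearOrder ι] (H : ι → Subgroup Γ) [∀ i, IsFreeGroup (H i)]
      [∀ j, IsFreeGroup (below H j)] (hH : Monotone H) {a : FreeGroup (Gen H)}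
      (ha : (a : FreeGroup (Gen H) ⧸ relKer H hH) = 1) :
      FreeGroup.lift (genVal H) a = 1 := by
    have hle : relKer H hH ≤ (FreeGroup.lift (genVal H)).ker :=
      Subgroup.normalClosure_le_normal (by rintro _ ⟨q, rfl⟩; exact lift_rel H hH q)
    exact hle ((QuotientGroup.eq_one_iff a).1 ha)

theorem compat_all [WellFoundedLT ι] (j : ι) : Compat H hH j := by
  induction j using WellFoundedLT.induction with
  | ind j IH =>
    intro i hij x hi hj
    have key : ∀ v : FreeGroup (IsFreeGroup.Generators (below H j)),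
        (((IsFreeGroup.basis (below H j)).repr.symm v : below H j) : Γ) = 1 ∨
        ∃ (k : ι) (_ : k < j) (hk : (((IsFreeGroup.basis (below H j)).repr.symm v : below H j) : Γ)
          ∈ H k), stageMap H hH j ⟨_, below_le H hH j
            ((IsFreeGroup.basis (below H j)).repr.symm v).2⟩ = stageMap H hH k ⟨_, hk⟩ := by
      intro v
      induction v using FreeGroup.induction_on with
      | C1 => exact Or.inl (by simp)
      | of y =>
        obtain ⟨hmem, hval⟩ := lowWord_spec H (⟨j, y⟩ : Rel H)
        have hrel : ((lowWord H (⟨j, y⟩ : Rel H)) : FreeGroup (Gen H) ⧸ relKer H hH) =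
            (FreeGroup.map (Sigma.mk j) (highWord H hH ⟨j, y⟩) : FreeGroup (Gen H)) :=
          QuotientGroup.eq.2 (Subgroup.subset_normalClosure ⟨⟨j, y⟩, rfl⟩)
        rcases word_eq H hH (fun k => k < j) IH hmem with h1 | ⟨k, hk, hv, h1⟩
        · refine Or.inl ?_
          have := word_eq.lift_eq_one H hH h1
          rw [hval] at this
          exact this
        · rw [hrel] at h1
          refine Or.inr ⟨k, hk, by rw [hval] at hv; exact hv, ?_⟩
          refine (h1.trans (congrArg _ (Subtype.ext ?_)) : _)
          exact hval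
      | inv_of y hy =>
        rcases hy with h | ⟨k, hk, hm, he⟩
        · exact Or.inl (by simp [map_inv, h])
        · refine Or.inr ⟨k, hk, by simpa [map_inv] using inv_mem hm, ?_⟩
          have h2 := congrArg (·⁻¹) he
          simp only [← map_inv] at h2
          refine Eq.trans (congrArg _ (Subtype.ext ?_)) (h2.trans (congrArg _ (Subtype.ext ?_))) <;>
            simp [map_inv]
      | mul a b ha hb =>
        have hmul : (((IsFreeGroup.basis (below H j)).repr.symm (a * b) : below H j) : Γ) =
            ((IsFreeGroup.basis (below H j)).repr.symm a : below H j) *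
              (((IsFreeGroup.basis (below H j)).repr.symm b : below H j) : Γ) := by simp
        rcases ha with ha | ⟨k, hk, hka, ea⟩
        · rw [ha, one_mul] at hmul
          simpa only [hmul] using hb
        rcases hb with hb | ⟨l, hl, hlb, eb⟩
        · rw [hb, mul_one] at hmul
          simp only [hmul]
          exact Or.inr ⟨k, hk, hka, ea⟩
        simp only [hmul]
        rcases le_total k l with h | h
        · refine Or.inr ⟨l, hl, mul_mem (hH h hka) hlb, ?_⟩
          rw [← compat_le H hH (IH l hl) h hka] at ea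
          exact (map_mul (stageMap H hH j) ⟨_, _⟩ ⟨_, _⟩).trans
            (((congrArg₂ (· * ·) ea eb)).trans (map_mul (stageMap H hH l) ⟨_, _⟩ ⟨_, _⟩).symm)
        · refine Or.inr ⟨k, hk, mul_mem hka (hH h hlb), ?_⟩
          rw [← compat_le H hH (IH k hk) h hlb] at eb
          exact (map_mul (stageMap H hH j) ⟨_, _⟩ ⟨_, _⟩).trans
            (((congrArg₂ (· * ·) ea eb)).trans (map_mul (stageMap H hH k) ⟨_, _⟩ ⟨_, _⟩).symm)
    have hx : x ∈ below H j := Subgroup.mem_iSup_of_mem i (Subgroup.mem_iSup_of_mem hij hi)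
    have hk := key ((IsFreeGroup.basis (below H j)).repr ⟨x, hx⟩)
    simp only [MulEquiv.symm_apply_apply] at hk
    rcases hk with h1 | ⟨k, hkj, hxk, hek⟩
    · subst h1
      exact (map_one (stageMap H hH j)).trans (map_one (stageMap H hH i)).symm
    · rcases le_total i k with h | h
      · rw [hek]; exact compat_le H hH (IH k hkj) h hi
      · rw [hek]; exact (compat_le H hH (IH i hij) h hxk).symm

theorem kernel_eq [WellFoundedLT ι] :
    relKer H hH = (FreeGroup.lift (genVal H)).ker := by
  refine le_antisymm (Subgroup.normalClosure_le_normal ?_) ?_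
  · rintro _ ⟨q, rfl⟩
    exact lift_rel H hH q
  · intro w hw
    have hall : w ∈ Subgroup.closure {w | ∃ q : Gen H, True ∧ w = FreeGroup.of q} := by
      have : {w | ∃ q : Gen H, True ∧ w = FreeGroup.of q} = Set.range (@FreeGroup.of (Gen H)) := by
        ext; simp [eq_comm]
      rw [this, FreeGroup.closure_range_of]
      trivial
    rcases word_eq H hH (fun _ => True) (fun i _ => compat_all H hH i) hall with h | ⟨i, _, h, he⟩
    · exact (QuotientGroup.eq_one_iff w).1 h
    · refine (QuotientGroup.eq_one_iff w).1 (he.trans ?_)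
      rw [← map_one (stageMap H hH i)]
      exact congrArg _ (Subtype.ext hw)

/-! ### Injectivity of the boundary -/

open scoped Classical

/-- Chain in the basis of the partial union below j of the coset part of an element. -/
noncomputable def coord (j : ι) (g : Γ) : IsFreeGroup.Generators (below H j) × Γ →₀ ℤ :=
  chain (fun y => relVal H ⟨j, y⟩) (g : Γ ⧸ below H j).out
    ((IsFreeGroup.basis (below H j)).repr
      ⟨((g : Γ ⧸ below H j).out)⁻¹ * g, by
        rw [← QuotientGroup.eq, QuotientGroup.out_eq']⟩)

theorem coord_mul (j : ι) (g : Γ) (y : IsFreeGroup.Generators (below H j)) :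
    coord H j (g * relVal H ⟨j, y⟩) = coord H j g + Finsupp.single (y, g) 1 := by
  have hq : ((g * relVal H ⟨j, y⟩ : Γ) : Γ ⧸ below H j) = (g : Γ ⧸ below H j) :=
    QuotientGroup.eq.2 (by
      rw [mul_inv_rev, inv_mul_cancel_right]
      exact inv_mem (IsFreeGroup.basis (below H j) y).2)
  set o := (g : Γ ⧸ below H j).out with ho
  have hmem : o⁻¹ * g ∈ below H j := by
    rw [ho, ← QuotientGroup.eq, QuotientGroup.out_eq']
  have hval : ∀ v : FreeGroup (IsFreeGroup.Generators (below H j)),
      FreeGroup.lift (fun y => relVal H ⟨j, y⟩) v =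
        (((IsFreeGroup.basis (below H j)).repr.symm v : below H j) : Γ) := by
    intro v
    have : FreeGroup.lift (fun y => relVal H ⟨j, y⟩) =
        (below H j).subtype.comp (IsFreeGroup.basis (below H j)).repr.symm.toMonoidHom := by
      apply FreeGroup.ext_hom
      intro x
      simp [relVal]
      rfl
    exact DFunLike.congr_fun this v
  have e : (IsFreeGroup.basis (below H j)).repr
      ⟨o⁻¹ * (g * relVal H ⟨j, y⟩), by
        rw [← mul_assoc]; exact mul_mem hmem (IsFreeGroup.basis (below H j) y).2⟩ =
      (IsFreeGroup.basis (below H j)).repr ⟨o⁻¹ * g, hmem⟩ * FreeGroup.of y := by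
    rw [← FreeGroupBasis.repr_apply_coe (IsFreeGroup.basis (below H j)) y, ← map_mul]
    exact congrArg _ (Subtype.ext (mul_assoc _ _ _).symm)
  rw [coord, coord]
  simp only [hq, ← ho]
  rw [e, chain_mul, chain_of, hval]
  simp

/-- The contraction at stage j. -/
noncomputable def contr (j : ι) :
    (Gen H × Γ →₀ ℤ) →ₗ[ℤ] (IsFreeGroup.Generators (below H j) × Γ →₀ ℤ) :=
  Finsupp.linearCombination ℤ fun p : Gen H × Γ =>
    if p.1.1 = j then coord H j (p.2 * genVal H p.1) - coord H j p.2 else 0

theorem contr_low (j : ι) {w : FreeGroup (Gen H)}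
    (hw : w ∈ Subgroup.closure {w | ∃ q : Gen H, q.1 ≠ j ∧ w = FreeGroup.of q}) :
    ∀ g, contr H j (chain (genVal H) g w) = 0 := by
  induction hw using Subgroup.closure_induction with
  | mem w hw =>
    obtain ⟨q, hq, rfl⟩ := hw
    intro g
    simp [chain_of, contr, hq]
  | one => intro g; simp [chain_one]
  | mul a b _ _ ha hb => intro g; simp [chain_mul, ha, hb]
  | inv a _ ha => intro g; simp [chain_inv, ha]

theorem contr_map (j : ι) (v : FreeGroup (IsFreeGroup.Generators (H j))) :
    ∀ g, contr H j (chain (genVal H) g (FreeGroup.map (Sigma.mk j) v)) =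
      coord H j (g * FreeGroup.lift (genVal H) (FreeGroup.map (Sigma.mk j) v)) - coord H j g := by
  induction v using FreeGroup.induction_on with
  | C1 => intro g; simp [chain_one]
  | of x => intro g; simp [chain_of, contr]
  | inv_of x hx =>
    intro g
    rw [map_inv, chain_inv, map_neg, hx, map_inv, inv_mul_cancel_right, neg_sub]
  | mul a b ha hb =>
    intro g
    rw [map_mul, chain_mul, map_add, ha, hb, map_mul, mul_assoc]
    abel

theorem lowWords_le {i j : ι} (h : i ≤ j) :
    lowWords H i ≤ Subgroup.closure {w | ∃ q : Gen H, q.1 ≠ j ∧ w = FreeGroup.of q} :=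
  Subgroup.closure_mono fun _ ⟨q, hq, e⟩ => ⟨q, (lt_of_lt_of_le hq h).ne, e⟩

theorem contr_rel_lt {j : ι} {q : Rel H} (h : q.1 < j) (g : Γ) :
    contr H j (chain (genVal H) g (rel H hH q)) = 0 := by
  refine contr_low H j ?_ g
  refine mul_mem (inv_mem (lowWords_le H h.le (lowWord_spec H q).1)) ?_
  generalize highWord H hH q = v
  induction v using FreeGroup.induction_on with
  | C1 => simp
  | of x => exact Subgroup.subset_closure ⟨⟨q.1, x⟩, h.ne, by simp⟩
  | inv_of x hx => simpa using hx
  | mul a b ha hb => simpa using mul_mem ha hb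

theorem contr_rel_self (j : ι) (y : IsFreeGroup.Generators (below H j)) (g : Γ) :
    contr H j (chain (genVal H) g (rel H hH ⟨j, y⟩)) =
      Finsupp.single (y, g * (relVal H ⟨j, y⟩)⁻¹) 1 := by
  rw [rel, chain_mul, map_add,
    contr_low H j (inv_mem (lowWords_le H le_rfl (lowWord_spec H ⟨j, y⟩).1)), zero_add, contr_map,
    map_inv, (lowWord_spec H ⟨j, y⟩).2, lift_map, highWord, MulEquiv.symm_apply_apply,
    coord_mul, add_sub_cancel_left]

theorem boundary_injective : Function.Injective (boundary (genVal H) (rel H hH)) := by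
  rw [injective_iff_map_eq_zero]
  intro c hc
  by_contra hne
  have hs : (c.support.image fun p => p.1.1).Nonempty :=
    (Finsupp.support_nonempty_iff.2 hne).image _
  set j := (c.support.image fun p => p.1.1).max' hs with hj
  obtain ⟨⟨⟨i, y⟩, g⟩, hp, hij⟩ := Finset.mem_image.1 (Finset.max'_mem _ hs)
  simp only at hij
  rw [← hj] at hij
  subst hij
  have hle : ∀ p ∈ c.support, p.1.1 ≤ j := fun p hp =>
    Finset.le_max' _ _ (Finset.mem_image_of_mem (fun p : Rel H × Γ => p.1.1) hp)
  have h0 := congrArg (fun z => contr H j z (y, g * (relVal H ⟨j, y⟩)⁻¹)) hc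
  simp only [boundary, Finsupp.linearCombination_apply, Finsupp.sum, map_sum, map_smul,
    map_zero, Finsupp.coe_zero, Pi.zero_apply, Finsupp.finsetSum_apply,
    Finsupp.smul_apply] at h0
  rw [Finset.sum_eq_single ((⟨j, y⟩ : Rel H), g)] at h0
  · rw [contr_rel_self, Finsupp.single_eq_same, smul_eq_mul, mul_one] at h0
    exact Finsupp.mem_support_iff.1 hp h0
  · rintro ⟨⟨k, y'⟩, g'⟩ hp' hne'
    rcases lt_or_eq_of_le (hle _ hp') with hk | hk
    · rw [contr_rel_lt H hH hk, Finsupp.zero_apply, smul_zero]
    · simp only at hk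
      subst hk
      rw [contr_rel_self, Finsupp.single_eq_of_ne, smul_zero]
      intro e
      simp only [Prod.mk.injEq] at e
      obtain ⟨rfl, e⟩ := e
      exact hne' (by simp [mul_right_cancel e])
  · intro h; exact absurd hp h

end Main

/-- A group that is the union of a well-ordered increasing family of free subgroups, all of whose
partial unions are free, has an aspherical presentation complex. -/
theorem hasAsphericalPresentation_of_free_chain {ι Γ : Type} [Group Γ] [LinearOrder ι]
    [WellFoundedLT ι] (H : ι → Subgroup Γ) (hH : Monotone H) (htop : (⨆ i, H i) = ⊤)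
    [∀ i, IsFreeGroup (H i)]
    (hbelow : ∀ j, IsFreeGroup (⨆ i, ⨆ _ : i < j, H i : Subgroup Γ)) :
    HasAsphericalPresentation Γ := by
  have : ∀ j, IsFreeGroup (below H j) := hbelow
  exact ⟨Gen H, Rel H, genVal H, rel H hH, surj H htop, kernel_eq H hH, boundary_injective H hH⟩

end Vale.Agent.P173
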